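import Crest.Agent.X212.Wrd81.Cut
import Crest.Agent.X212.Ell97.Loc

/-!
# Row 212, SW-DENS-P (helper43): local regularity of distributional solutions of the adjoint equation
-/

set_option autoImplicit false
set_option linter.unusedSectionVars false
noncomputable section
open scoped Manifold ContDiff Topology InnerProductSpace
open MeasureTheory Set Function Filter

namespace Crest.Agent.X212.Dns43
open An An.Pre Sob92 Ell97

section pair
variable {X Y : ℕ → Type*} [∀ k, NormedAddCommGroup (X k)] [∀ k, InnerProductSpace ℝ (X k)]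
  [∀ k, NormedAddCommGroup (Y k)] [∀ k, InnerProductSpace ℝ (Y k)] [∀ k, CompleteSpace (X k)]
  [∀ k, CompleteSpace (Y k)] (P : Pair X Y)

theorem down {j : ℕ} (ℓ : Y (j + 1) →L[ℝ] ℝ) (m : X (j + 1) →L[ℝ] ℝ)
    (h : ∀ x, ℓ (P.L (j + 1) x) = m (P.i (j + 1) x)) :
    ∃ ℓ' : Y j →L[ℝ] ℝ, ∀ y, ℓ y = ℓ' (P.j j y) := by
  refine ⟨(ℓ ∘L P.j (j + 1) + m ∘L P.Ls (j + 1)) ∘L P.swap.G j, fun y => ?_⟩
  have a : P.j (j + 1) (P.j (j + 2) (P.swap.G (j + 1) y)) +
    P.L (j + 1) (P.Ls (j + 2) (P.swap.G (j + 1) y)) = y := P.swap.Q_G (j + 1) y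
  have b : P.swap.G j (P.j j y) = P.j (j + 2) (P.swap.G (j + 1) y) := P.swap.G_i j y
  conv_lhs => rw [← a]
  simp only [map_add, h, P.Lsj, ContinuousLinearMap.comp_apply, add_apply, b]

theorem up0 {z : Y 0} {w : X 0} (h : ∀ u, ⟪P.L 0 u, z⟫_ℝ = ⟪P.i 0 u, w⟫_ℝ) :
    ∃ v, P.j 0 v = z ∧ P.Ls 0 v = w := by
  obtain ⟨v, rfl⟩ := P.surjY 0 z
  obtain ⟨a, rfl⟩ := P.surjX 0 w
  have k := h (P.Ls 1 v - P.i 1 a)
  rw [inner_add_right, inner_add_right, P.adj, ← P.Lsj, ← P.adj, P.Li, ← sub_eq_zero,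
    add_sub_add_comm, ← inner_sub_right, ← inner_sub_right, ← map_sub, ← map_sub] at k
  have h2 := real_inner_self_nonneg (x := P.L 0 (P.Ls 1 v - P.i 1 a))
  have e : P.Ls 1 v = P.i 1 a := sub_eq_zero.1
    (P.i_inj 0 ((real_inner_self_nonpos.1 (by linarith)).trans (map_zero _).symm))
  exact ⟨P.j 1 v + P.L 1 a, by rw [map_add, P.Li, e], by rw [map_add, ← P.Lsj, e]⟩

theorem up {m : ℕ} {z : Y 0} {w : X m} (h : ∀ u, ⟪P.L 0 u, z⟫_ℝ = ⟪P.i 0 u, dn0 P.i m w⟫_ℝ) :
    ∃ v, dn0 P.j (m + 1) v = z := by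
  obtain ⟨v, rfl, h2⟩ := up0 P h
  obtain ⟨v', rfl, -⟩ := P.swap.reg_all m h2
  exact ⟨v', (i_dn1 (i := P.j) m v').symm⟩

end pair

variable {E : Type} [NormedAddCommGroup E] [NormedSpace ℝ E] [FiniteDimensional ℝ E]
  [MeasurableSpace E] [BorelSpace E]
  {HM : Type} [TopologicalSpace HM] {I : ModelWithCorners ℝ E HM} [I.Boundaryless]
  {M : Type} [TopologicalSpace M] [ChartedSpace HM M] [IsManifold I ∞ M]
  [MeasurableSpace M] [T2Space M] [BorelSpace M] [SecondCountableTopology M]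
  {ι : Type} [Fintype ι]
  {V : Type} [NormedAddCommGroup V] [InnerProductSpace ℝ V] [FiniteDimensional ℝ V]
  {W : Type} [NormedAddCommGroup W] [InnerProductSpace ℝ W] [FiniteDimensional ℝ W]
  {G : Fr I M ι} {A : Op M ι V W} {C C' : ℕ → ℝ} {B : M → V →L[ℝ] W} {f : M → V}
  {lam : Sec I A.q →ₗ[ℝ] ℝ} {ζ : M → ℝ} {j : ℕ}

/-- a field of maps applied to a section -/
def ap {p : M → V →L[ℝ] V} {q : M → W →L[ℝ] W} (h : Sm I B) (hm : Maps p q B) (u : Sec I p) :
    Sec I q := ⟨fun x => B x (u.1 x), h.clm_apply u.2.1, u.2.2.1.mono fun x hx h => hx (by simp [h]),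
      fun x => hm x _ (u.2.2.2 x)⟩

/-- the product of a section with a function -/
def sm {q : M → W →L[ℝ] W} (h : Sm I ζ) (u : Sec I q) : Sec I q :=
  ⟨fun x => ζ x • u.1 x, h.smul u.2.1, u.2.2.1.smul_left, fun x => by rw [map_smul, u.2.2.2]⟩

theorem adj_mul {p : M → V →L[ℝ] V} {q : M → W →L[ℝ] W} (hp : G.IsProj p C) (h : G.Cb B)
    (hm : Maps p q B) (y : G.H j q) (u : Sec I p) :
    ⟪G.incl j 0 p (G.mulH j q p (fun x => p x ∘L Op.tr (B x)) y), G.toH 0 p u⟫_ℝ =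
      ⟪G.incl j 0 q y, G.toH 0 q (ap h.choose_spec.1 hm u)⟫_ℝ := by
  have r := rep_mulH (k := j) (p := q) (q := p) (Cb_comp ⟨_, hp.cb⟩ (Cb_clm (trL V W) h))
    (Maps.of_left fun x v => hp.idem x _)
  induction y using H_ind with
  | hP => exact isClosed_eq (by fun_prop) (by fun_prop)
  | h v =>
    rw [show G.mulH j q p (fun x => p x ∘L Op.tr (B x)) _ = _ from RepT_toH r v,
      incl_toH j.zero_le, incl_toH j.zero_le, inner_toH, inner_toH]
    refine integral_congr_ae (.of_forall fun x => ?_)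
    simp only [ContinuousLinearMap.comp_apply, trL_apply, hp.symm, u.2.2.2, tr_inner, ap]

variable (G B f lam) in
/-- `lam` solves the adjoint equation -/
def Adj : Prop := ∀ (φ : Sec I A.p) (v : Sec I A.q),
  (∀ x, v.1 x = A.app G φ.1 x + B x (φ.1 x)) → lam v = ∫ x, ⟪f x, φ.1 x⟫_ℝ ∂G.μ

variable (G lam) in
/-- `lam` has order `j` -/
def Neg (j : ℕ) : Prop := ∀ (ζ : M → ℝ) (h : Sm I ζ), HasCompactSupport ζ →
  ∃ ℓ : G.H j A.q →L[ℝ] ℝ, ∀ u, lam (sm h u) = ℓ (G.toH j _ u)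

variable (G lam) in
/-- `lam` is locally of class `H j` -/
def Pos (j : ℕ) : Prop := ∀ (ζ : M → ℝ) (h : Sm I ζ), HasCompactSupport ζ →
  ∃ z : G.H j A.q, ∀ u, lam (sm h u) = ⟪G.incl j 0 _ z, G.toH 0 _ u⟫_ℝ

theorem Neg.pos (h : Neg G lam 0) : Pos G lam 0 := fun ζ h1 h2 =>
  let ⟨ℓ, e⟩ := h ζ h1 h2
  ⟨(InnerProductSpace.toDual ℝ _).symm ℓ, fun u => by
    rw [e, incl_self, InnerProductSpace.toDual_symm_apply]⟩

variable (hF : G.Tame C) (hA : A.Good G C') (hc : A.Cliff G) (hB : Sm I B) (hm : Maps A.p A.q B)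
  (hf : Sm I f) (he : Adj G B f lam)
include hA hB hm hf he

theorem comm (h : Sm I ζ) (hζ : HasCompactSupport ζ) : ∃ (ζ' : M → ℝ) (h' : Sm I ζ')
    (B' : M → V →L[ℝ] W) (b : G.Cb B') (m : Maps A.p A.q B') (w : Sec I A.p), HasCompactSupport ζ' ∧
    ∀ u, lam (sm h (LS hA u)) = ⟪G.toH 0 _ w, G.toH 0 _ u⟫_ℝ -
      lam (sm h' (ap b.choose_spec.1 m u)) := by
  obtain ⟨ζ', h1, h2, -, h3⟩ := Wrd81.exists_cut (I := I) hζ.isCompact isOpen_univ (subset_univ _)
  refine ⟨ζ', h1, fun x => ζ x • B x + sy G A ζ x,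
    Cb_add (Cb_of_hcs (h.smul hB) hζ.smul_right) (cb_sy hA (Cb_of_hcs h hζ)),
    fun x v e => by simp only [add_apply, smul_apply, map_add, map_smul, hm x v e,
      maps_sy hA ζ x v e],
    ⟨fun x => ζ x • A.p x (f x), h.smul (hA.p.cb.1.clm_apply hf), hζ.smul_right,
      fun x => by rw [map_smul, hA.p.idem]⟩, h2, fun u => ?_⟩
  rw [eq_sub_iff_add_eq, ← map_add, he (sm h u) _ fun x => ?_, inner_toH]
  · refine integral_congr_ae (.of_forall fun x => ?_)
    simp only [sm, real_inner_smul_left, real_inner_smul_right, hA.p.symm, u.2.2.2]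
  · have e := app_smul (F := G) (A := A) h u.2.1 x
    by_cases hx : x ∈ tsupport ζ
    · simp only [sm, ap, Submodule.coe_add, Pi.add_apply, LS_val, h3 x hx, one_smul, e, add_apply,
        smul_apply, map_smul]
      abel
    · simp [sm, ap, e, image_eq_zero_of_notMem_tsupport hx, sy_eq_zero hx]

include hF hc

theorem Neg.step (H : Neg G lam (j + 1)) : Neg G lam j := fun ζ h hζ => by
  obtain ⟨ζ', h', B', b, m, w, c, e⟩ := comm hA hB hm hf he h hζ
  obtain ⟨ℓ, k⟩ := H ζ h hζ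
  obtain ⟨ℓ', k'⟩ := H ζ' h' c
  obtain ⟨l, hl⟩ := down (par hF hA hc) ℓ (innerSL ℝ (G.toH 0 _ w) ∘L G.incl (j + 1) 0 _ -
      ℓ' ∘L G.mulH (j + 1) _ _ B') fun x => by
    change ℓ (A.H G (j + 1) x) = ⟪_, G.incl _ _ _ (G.incl _ _ _ x)⟫_ℝ -
      ℓ' (G.mulH _ _ _ B' (G.incl _ _ _ x))
    induction x using H_ind with
    | hP => exact isClosed_eq (by fun_prop) (by fun_prop)
    | h u =>
      rw [H_toH hA, ← k, e, incl_toH (by omega), incl_toH (by omega), RepT_toH (rep_mulH b m), k']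
      rfl
  exact ⟨l, fun u => (k u).trans ((hl _).trans (congrArg l (incl_toH j.le_succ u)))⟩

theorem Pos.step (H : Pos G lam j) : Pos G lam (j + 1) := fun ζ h hζ => by
  obtain ⟨ζ', h', B', b, m, w, c, e⟩ := comm hA hB hm hf he h hζ
  obtain ⟨z, k⟩ := H ζ h hζ
  obtain ⟨z', k'⟩ := H ζ' h' c
  obtain ⟨v, hv⟩ := up (par hF hA hc) (z := G.incl j 0 _ z)
      (w := G.toH j _ w - G.mulH j _ _ (fun x => A.p x ∘L Op.tr (B' x)) z') fun x => by
    refine Eq.trans ?_ (congrArg _ (dn0_incl A.p j _).symm)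
    change ⟪A.H G 0 x, _⟫_ℝ = ⟪G.incl (0 + 1) 0 A.p x, _⟫_ℝ
    induction x using H_ind with
    | hP => exact isClosed_eq (by fun_prop) (by fun_prop)
    | h u =>
      rw [H_toH hA, real_inner_comm, ← k, e, incl_toH (k := 0 + 1) zero_le_one,
        real_inner_comm _ (G.toH 0 _ u),
        map_sub, inner_sub_left, adj_mul hA.p b m, incl_toH j.zero_le, k']
  exact ⟨v, fun u => (k u).trans (by rw [← hv, ← dn0_incl]; rfl)⟩

/-- **A distributional solution of the adjoint equation which vanishes on a dense open set is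
zero.** -/
theorem loc_zero {ι' : Type} [Fintype ι'] {F : Pre I M ι'} {k : ℕ} (ℓ : F.H k A.q →L[ℝ] ℝ)
    (hl : ∀ u, lam u = ℓ (F.toH k _ u)) {Ω : Set M} (hΩ : IsOpen Ω) (hd : Dense Ω)
    (h0 : ∀ u, tsupport u.1 ⊆ Ω → lam u = 0) (u : Sec I A.q) : lam u = 0 := by
  have n : ∀ j, Neg G lam j → Neg G lam 0 := fun j => by
    induction j with
    | zero => exact id
    | succ j ih => exact fun h => ih (h.step hF hA hc hB hm hf he)
  have p : ∀ j, Pos G lam j := fun j => by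
    induction j with
    | zero =>
      refine (n k fun ζ h hζ => ?_).pos
      obtain ⟨L, hL⟩ := Wrd81.rep_loc G.toPre F k (p := A.q) (q := A.q) (sm_sc (V := W) h)
        (hζ.mono fun x hx e => hx (by simp [sc, e])) fun x v e => by simp [e]
      exact ⟨ℓ ∘L L, fun u => (hl _).trans (congrArg ℓ (RepT_toH hL u).symm)⟩
    | succ j ih => exact ih.step hF hA hc hB hm hf he
  obtain ⟨ζ, h, hζ, -, h1⟩ := Wrd81.exists_cut (I := I) u.2.2.1.isCompact isOpen_univ (subset_univ _)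
  obtain ⟨z, hz⟩ := p 4 ζ h hζ
  have := FiniteDimensional.complete ℝ W
  have := openPos G.toPre
  have := lfm G.toPre
  have := scs (I := I) (M := M)
  have S := Sup.of_tame hF
  have c := continuous_val S le_rfl z
  simp only [(Is.val S le_rfl z).inner_toH] at hz
  have a := hΩ.ae_eq_zero_of_integral_contMDiff_smul_eq_zero I (μ := G.μ)
    (c.locallyIntegrable.locallyIntegrableOn Ω) fun χ h2 h3 h4 => ext_inner_right ℝ fun v => by
      let w : Sec I A.q := ⟨fun x => χ x • A.q x v, h2.smul (hA.q.cb.1.clm_apply contMDiff_const),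
        h3.smul_right, fun x => by rw [map_smul, hA.q.idem]⟩
      rw [inner_zero_left, ← h0 (sm h w) ((tsupport_smul_subset_right _ _).trans
        ((tsupport_smul_subset_left _ _).trans h4)), hz, real_inner_comm, ← integral_inner
        (c.locallyIntegrable.integrable_smul_left_of_hasCompactSupport h2.continuous h3), ip]
      simp only [w, real_inner_smul_right, ← hA.q.symm, val_proj S le_rfl, real_inner_comm v]
  have e : G.val 4 _ z = 0 := Continuous.ext_on hd c continuous_const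
    (Measure.eqOn_open_of_ae_eq ((ae_restrict_iff' hΩ.measurableSet).2 a) hΩ c.continuousOn
      continuousOn_const)
  rw [← show sm h u = u from Subtype.ext (funext (Wrd81.smul_eq_of_one Subset.rfl h1)), hz, e]
  simp [ip]

end Crest.Agent.X212.Dns43
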