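import Crest.Agent.X212.Dns43.Nk
import Crest.Agent.X212.Dns43.Loc
import Crest.Agent.X212.Pb50.Nk
import Crest.Agent.X212.Map77.Cls
import Crest.Agent.X212.Ucp64.Man

/-!
# Row 212, SW-DENS-P (helper43): the linearised Dirac row has no cokernel
-/

set_option autoImplicit false
set_option linter.unusedSectionVars false
noncomputable section
open scoped Manifold ContDiff Topology InnerProductSpace
open MeasureTheory Set Function Filter

namespace Crest.Agent.X212.Dns43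
open An Sob92 Cyf70 Sw88 Ell97
open Sw (Bg En3 Nk Pz)
open Wz78 (SA)
open M (Mf)

variable {κ lam ν : Type} [Fintype κ] [Fintype lam] [Fintype ν] [DecidableEq ν]
  {X : Mf 4} {nc : ℕ}

section bg
variable (b : Bg X.I X.M κ lam ν nc)

/-- the principal part of the Dirac operator -/
abbrev dO : Op X.M (Option κ) (Eu ν) (Eu ν) := Map77.cut b.F.toPre b.pp b.pm b.m.ρ 0

variable {b} (hb : b.OK)
include hb

theorem cb_vol : b.F.Cb b.vol := Cb_smul (Cb_const _) (Cb_sum _ fun i _ => Cb_sum _ fun j _ =>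
  Cb_sum _ fun k _ => Cb_sum _ fun l _ => Cb_smul (hb.co i j k l)
    (Cb_comp (Cb_comp (Cb_comp (hb.cρ i) (hb.cρ j)) (hb.cρ k)) (hb.cρ l)))

theorem cb_pp : b.F.Cb b.pp := Cb_smul (Cb_const _) (Cb_sub hb.cp (cb_vol hb))

theorem cb_pm : b.F.Cb b.pm := Cb_smul (Cb_const _) (Cb_add hb.cp (cb_vol hb))

theorem pp_pp (x : X.M) (v : Eu ν) : b.pp x (b.pp x v) = b.pp x v := congrArg (· v) (p8 hb x).pp_pp

theorem pm_pm (x : X.M) (v : Eu ν) : b.pm x (b.pm x v) = b.pm x v := congrArg (· v) (p8 hb x).pm_pm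

theorem good : ∃ C, b.F.Tame C ∧ (dO b).Good b.F C :=
  Map77.good_of hb.tame.choose_spec (cb_pp hb) (cb_pm hb)
    (fun a => Cb_comp (cb_pm hb) (Cb_comp (hb.cρ a) (cb_pp hb)))
    (Cb_comp (cb_pm hb) (Cb_add (Cb_const 0) (Cb_sum _ fun a _ =>
      Cb_comp (hb.cρ a) (Cb_D (cb_pp hb) a))))
    (.cut _ ⟨pp_pp hb, fun x => (p8 hb x).pp_s⟩ ⟨pm_pm hb, fun x => (p8 hb x).pm_s⟩
      fun a x => hb.G.P ▸ (p8 hb x).cl.proj a)

theorem cliff : (dO b).Cliff b.F := by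
  have k : ∀ i j x v w, ⟪b.m.ρ i x v, b.m.ρ j x w⟫_ℝ + ⟪b.m.ρ j x v, b.m.ρ i x w⟫_ℝ =
      2 * b.F.P i j x * ⟪v, b.m.p x w⟫_ℝ := fun i j x v w => by
    rw [(p8 hb x).ρs, (p8 hb x).ρs, (p8 hb x).rel i j, hb.G.P]
    simp [inner_sub_right, real_inner_smul_right]
  have e1 : ∀ i x v, (dO b).σ i x v = b.m.ρ i x (b.pp x v) := fun i x v =>
    (p8 hb x).pm_ρ (pp_pp hb x v) i
  have e2 : ∀ i x v, ((dO b).adj b.F).σ i x v = b.m.ρ i x (b.pm x v) := fun i x v =>
    ext_inner_left ℝ fun w => by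
      refine (inner_neg_right _ _).trans ((congrArg _ (inner_tr _ _ _)).trans ?_)
      rw [← (p8 hb x).pp_ρ (pm_pm hb x v) i]
      refine .trans ?_ ((p8 hb x).pp_s _ _)
      rw [e1, ← (p8 hb x).pm_ρ (pp_pp hb x w) i, (p8 hb x).pm_s, (p8 hb x).ρs, neg_neg]
      rfl
  refine ⟨fun i j x v w => ?_, fun i j x v w => ?_⟩
  · rw [e1, e1, e1, e1, k, p_of hb (pp_pp hb x w)]
    exact congrArg _ (((p8 hb x).pp_s _ _).symm.trans (congrArg (⟪·, w⟫_ℝ) (pp_pp hb x v)))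
  · rw [e2, e2, e2, e2, k, show b.m.p x (b.pm x w) = b.pm x w from congrArg (· w) (p8 hb x).p_pm]
    exact congrArg _ (((p8 hb x).pm_s _ _).symm.trans (congrArg (⟪·, w⟫_ℝ) (pm_pm hb x v)))

end bg

variable {N : Type} [Fintype N] {e : N → En3 κ lam ν} (P : Pz X nc e) (c : Sw.Cfg X.M κ ν)

/-- the local part of order zero -/
def B0 (x : X.M) : En ν := ∑ a, P.bg.m.ρ a x * P.bg.W c a x + P.bg.ms x -
  ∑ i, (P.nk i).elim 0 fun K => β K c (K.tm x) • P.bg.m.ρ none x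

/-- the local part -/
def LL : (X.M → Eu ν) → X.M → Eu ν := P.bg.F.op P.bg.m.ρ (B0 P c)

/-- the non-local part -/
def KK (φ : X.M → Eu ν) : X.M → Eu ν := ∑ i, (P.nk i).elim 0 fun K => kk K c φ

/-- the variation of the connection -/
def AA (α : Option κ → X.M → ℝ) (x : X.M) : Eu ν := ∑ i, α i x • P.bg.m.ρ i x (P.bg.jp x (c.Φ x))

theorem LL_self (x : X.M) : LL P c c.Φ x = P.bg.eD c x - P.p0.D c x := by
  simp only [LL, Pre.op, B0, Bg.eD, Wz78.dir, Wz78.nab, Pz.p0, map_add, Finset.sum_add_distrib,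
    sub_apply, add_apply, sum_apply, mul_apply_eq_comp, Pre.D_def, add_assoc, add_sub_assoc]
  congr 4
  funext i
  cases P.nk i <;> rfl

variable {P c} {φ : X.M → Eu ν} (hP : P.OK) (hc : P.bg.Adm c)
include hP hc

theorem der_D (hφ : Sm X.I φ) (α : Option κ → X.M → ℝ) (x : X.M) : HasDerivAt (fun r : ℝ =>
    P.bg.eD ⟨c.a + r • α, c.Φ + r • φ⟩ x - P.p0.D ⟨c.a + r • α, c.Φ + r • φ⟩ x)
      (AA P c α x + LL P c φ x - KK P c φ x) 0 := by
  have d := HasDerivAt.fun_sum (u := Finset.univ) (x := (0 : ℝ)) (A := fun i r => (P.nk i).elim 0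
      fun K => K.rad ⟨c.a + r • α, c.Φ + r • φ⟩ x) (A' := fun i => ((P.nk i).elim 0 fun K =>
        β K c (K.tm x) • P.bg.m.ρ none x) (φ x) + ((P.nk i).elim 0 fun K => kk K c φ) x)
    fun i _ => by
      cases P.nk i with
      | none => simpa using hasDerivAt_const (0 : ℝ) (0 : Eu ν)
      | some K => exact der_rad K (hP.en i) hc.sΦ hφ _ x
  refine ((((((hasDerivAt_id (0 : ℝ)).smul_const (AA P c α x + P.bg.eD ⟨c.a, φ⟩ x)).add
    ((hasDerivAt_pow 2 (0 : ℝ)).smul_const (AA P ⟨c.a, φ⟩ α x))).const_add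
      (P.bg.eD c x)).congr_of_eventuallyEq (.of_forall fun r => ?_)).sub d).congr_deriv ?_
  · have k := fun a => congrFun ((P.bg.F.D_add hc.sΦ (v := r • φ) (fun y =>
      SA.smul contMDiffAt_const (hφ y)) a).trans (congrArg _ (P.bg.F.D_smul hφ r a))) x
    simp only [Pre.D_def] at k
    simp only [AA, Bg.eD, Wz78.dir, Wz78.nab, Bg.W, k, map_add, map_smul, Pi.add_apply,
      Pi.smul_apply, add_apply, smul_apply, Finset.sum_add_distrib, smul_add, add_smul,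
      smul_eq_mul, Finset.smul_sum, smul_smul, id, sq, mul_comm, mul_left_comm]
    abel
  · simp only [LL, KK, Pre.op, B0, Bg.eD, Wz78.dir, Wz78.nab, map_add, Finset.sum_add_distrib,
      sub_apply, add_apply, sum_apply, mul_apply_eq_comp, Pre.D_def, Finset.sum_apply, Bg.W,
      one_smul, Nat.add_one_sub_one, pow_one, mul_zero, zero_smul]
    abel

theorem sm_B : Sm X.I fun x => P.bg.pm x ∘L B0 P c x := (cb_pm hP.bg).choose_spec.1.clm_comp
  fun x => ((SA.sum _ fun a _ => SA.mul ((hP.bg.cρ a).choose_spec.1 x)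
    ((cm hP.bg hc).cc.sm a x)).add (hP.bg.cms.choose_spec.1 x)).sub (SA.sum _ fun i _ => by
      cases P.nk i with
      | none => exact contMDiffAt_const
      | some K => exact SA.smul (sm_tm K (cd_β K (hP.en i) hc.sΦ) (fun t ht =>
          mul_eq_zero_of_left (Nd18.ct_zero ht) _) x) ((hP.bg.cρ _).choose_spec.1 x))

omit hc in
theorem app_add (hφ : Sm X.I φ) (hp : ∀ x, P.bg.pp x (φ x) = φ x) (x : X.M) :
    (dO P.bg).app P.bg.F φ x + P.bg.pm x (B0 P c x (φ x)) = P.bg.pm x (LL P c φ x) := by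
  rw [Op.app, Map77.op_cut _ (cb_pp hP.bg).choose_spec.1 hφ hp, ← map_add]
  simp [Pre.op, LL]

variable (hD : ∀ x, P.bg.eD c x = P.p0.D c x)
include hD

theorem dense_ne (h0 : ∃ x, c.Φ x ≠ 0) : Dense {x | c.Φ x ≠ 0} := by
  obtain ⟨C, -, g⟩ := good hP.bg
  obtain ⟨x₀, h0⟩ := h0
  have := hP.con
  refine fun y => by_contra fun n => h0 (Ucp64.ucp_op _ _ g (cliff hP.bg).1 isOpen_univ
    isPreconnected_univ hc.sΦ.contMDiffOn (fun x _ => hc.pΦ x) (fun x _ => ⟨‖P.bg.pm x ∘L B0 P c x‖ + 1,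
      ((sm_B hP hc x).continuousAt.norm.eventually_lt_const (lt_add_one _)).mono fun z hz => ?_⟩)
    (mem_univ y) ((isClosed_closure.isOpen_compl.eventually_mem n).mono fun z hz =>
      by_contra fun k => hz (subset_closure k)) x₀ trivial)
  have k := app_add (c := c) hP hc.sΦ hc.pΦ z
  rw [LL_self, hD, sub_self, map_zero, add_eq_zero_iff_eq_neg] at k
  rw [k, norm_neg]
  exact ContinuousLinearMap.le_of_opNorm_le (P.bg.pm z ∘L B0 P c z) hz.le _

theorem LL_smul {θ : X.M → ℝ} (hθ : Sm X.I θ) :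
    LL P c (θ • c.Φ) = fun x => ∑ a, P.bg.F.D a θ x • P.bg.m.ρ a x (c.Φ x) := funext fun x => by
  have k : ∀ a, P.bg.F.D a (θ • c.Φ) x = _ := fun a => dv_smul (md hθ x) (md hc.sΦ x)
  have := LL_self P c x
  rw [hD, sub_self] at this
  rw [← add_zero (∑ a, _), ← smul_zero (θ x), ← this]
  simp only [LL, Pre.op, k, Pi.smul_apply', map_add, map_smul, Finset.sum_add_distrib, smul_add,
    Finset.smul_sum, add_assoc, Pre.D_def]

/-- **A functional that kills the linearised Dirac row vanishes.** -/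
theorem row_zero (h0 : ∃ x, c.Φ x ≠ 0) (Λ : (X.M → Eu ν) →ₗ[ℝ] ℝ) {ι : Type} [Fintype ι]
    {F : Pre X.I X.M ι} {k : ℕ} {q : X.M → En ν} (hq : P.bg.pm = q) (ℓ : F.H k q →L[ℝ] ℝ)
    (hl : ∀ u : Sec X.I q, Λ u.1 = ℓ (F.toH k _ u))
    (hα : ∀ α : Option κ → X.M → ℝ, (∀ i, Sm X.I (α i) ∧ HasCompactSupport (α i)) →
      (∀ i x, ∑ j, P.bg.B.P i j x * α j x = α i x) → Λ (AA P c α) = 0)
    (hφ : ∀ φ : Sec X.I P.bg.pp, Λ (LL P c φ.1 - KK P c φ.1) = 0 ∧
      ∀ x, q x ((LL P c φ.1 - KK P c φ.1) x) = (LL P c φ.1 - KK P c φ.1) x) : ℓ = 0 := by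
  subst hq
  obtain ⟨C, hT, g⟩ := good hP.bg
  have p := p8 hP.bg
  have hΩ : IsOpen {x | c.Φ x ≠ 0} := isOpen_ne_fun hc.sΦ.continuous continuous_const
  have sρ := fun a => (hP.bg.cρ a).choose_spec.1
  have z : ∀ u : X.M → Eu ν, Sm X.I u → HasCompactSupport u → (∀ x, P.bg.pm x (u x) = u x) →
      tsupport u ⊆ {x | c.Φ x ≠ 0} → Λ u = 0 := fun u s1 s2 s3 s4 => by
    have j : ∀ x, P.bg.jp x (c.Φ x) = P.bg.m.J (c.Φ x) := fun x => congrArg _ (p_of hP.bg (hc.pΦ x))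
    have := hα (fun i x => ⟪P.bg.m.ρ i x (P.bg.m.J (c.Φ x)), u x⟫_ℝ * (‖c.Φ x‖ ^ 2)⁻¹)
      (fun i => ⟨contMDiff_of_tsupport fun x hx => ?_, s2.mono fun x hx n => hx (by simp [n])⟩)
      fun i x => ?_
    · convert this using 2
      funext x
      simp only [AA, j, mul_comm _ (_⁻¹ : ℝ), mul_smul, ← Finset.smul_sum]
      rw [(p x).par1 ((p x).pp_J (hc.pΦ x)), real_inner_self_eq_norm_sq,
        (p x).norm_J (p_of hP.bg (hc.pΦ x))]
      by_cases hx : x ∈ tsupport u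
      · rw [inv_smul_smul₀ (pow_ne_zero 2 (norm_ne_zero_iff.2 (s4 hx)))]
        exact (s3 x).symm
      · simp [image_eq_zero_of_notMem_tsupport hx]
    · exact SA.mul (SA.inner (SA.app (sρ i x) (SA.app contMDiffAt_const (hc.sΦ x))) (s1 x))
        (((contDiff_norm_sq ℝ).contMDiff.comp hc.sΦ x).inv₀ (pow_ne_zero 2 (norm_ne_zero_iff.2
          (s4 (closure_mono (fun y (hy : _ ≠ _) (n : u y = 0) => hy (by simp [n])) hx)))))
    · simp only [← mul_assoc, ← Finset.sum_mul, ← real_inner_smul_left, ← sum_inner, (p x).sum_ρ]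
  have s : ∀ θ, Sm X.I θ → HasCompactSupport θ → θ • c.Φ ∈ Sec X.I P.bg.pp := fun θ h1 h2 =>
    ⟨h1.smul hc.sΦ, h2.smul_right, fun x => by rw [Pi.smul_apply', map_smul, hc.pΦ]⟩
  have kz : ∀ φ : Sec X.I P.bg.pp, Λ (KK P c φ.1) = 0 := fun φ => by
    rw [KK, map_sum]
    refine Finset.sum_eq_zero fun i _ => ?_
    rcases hK : P.nk i with _ | K
    · exact map_zero _
    refine nk_zero K (hP.en i) hc.sΦ Λ (fun θ h1 h2 h3 => ?_) (fun θ h1 h2 h3 => ?_) φ.2.1 φ.2.2.1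
    · have := (hφ ⟨_, s θ h1 h2⟩).1
      rw [map_sub, sub_eq_zero, LL_smul hP hc hD h1, KK, Finset.sum_eq_single i
        (fun j _ hj => Pb50.elim_zero fun K' h' => kk_zero K' fun x hx => by
          simp [h3 x (disjoint_left.1 (hP.dj hj K' h' K hK) hx)])
        fun h => (h (Finset.mem_univ i)).elim, hK] at this
      exact this.symm
    · have t : tsupport (fun x => ∑ a, P.bg.F.D a θ x • P.bg.m.ρ a x (c.Φ x)) ⊆ tsupport θ :=
        LL_smul hP hc hD h1 ▸ (tsupport_op _ _ _).trans (tsupport_smul_subset_left θ c.Φ)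
      exact z _ (fun x => SA.sum _ fun a _ => SA.smul (P.bg.F.sm_D h1 a x)
        (SA.app (sρ a x) (hc.sΦ x))) (h2.isCompact.of_isClosed_subset (isClosed_tsupport _) t)
        (fun x => by simp only [map_sum, map_smul, show ∀ a, P.bg.pm x _ = _ from
          (p x).pm_ρ (hc.pΦ x)]) (t.trans h3)
  have kp : ∀ φ x, P.bg.pm x (KK P c φ x) = KK P c φ x := fun φ x => by
    rw [KK, Finset.sum_apply, map_sum]
    refine Finset.sum_congr rfl fun i _ => ?_
    cases P.nk i with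
    | none => exact map_zero _
    | some K => exact (map_smul _ _ _).trans (congrArg _ ((p x).pm_ρ (hc.pΦ x) _))
  have := loc_zero (A := dO P.bg) (lam := Λ ∘ₗ (Sec X.I P.bg.pm).subtype) (f := 0) hT g (cliff hP.bg) (sm_B hP hc)
    (fun x v _ => pm_pm hP.bg x _) contMDiff_const (fun φ v hv => by
      obtain ⟨h1, h2⟩ := hφ φ
      rw [map_sub, kz, sub_zero] at h1
      simp only [Pi.sub_apply, map_sub, kp, sub_left_inj] at h2
      rw [← funext fun x => (hv x).trans ((app_add hP φ.2.1 φ.2.2.2 x).trans (h2 x))] at h1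
      exact h1.trans (by simp))
    ℓ hl hΩ (dense_ne hP hc hD h0) fun u => z u.1 u.2.1 u.2.2.1 u.2.2.2
  ext x
  induction x using H_ind with
  | hP => exact isClosed_eq (by fun_prop) (by fun_prop)
  | h u => exact (hl u).symm.trans (this u)

end Crest.Agent.X212.Dns43
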