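import Crest.Agent.X212.Dns43.Op
import Crest.Agent.X212.Pb50.Pt
import Crest.Agent.X212.Sw21.Fac
import Crest.Agent.X212.Wrd81.Onto
import Crest.Agent.X212.Kop92.Cut

/-!
# Row 212, SW-DENS-P (helper43): transversality on pieces
-/

set_option autoImplicit false
set_option linter.unusedSectionVars false
noncomputable section
open scoped Manifold ContDiff Topology InnerProductSpace
open MeasureTheory Set Function Filter

namespace Crest.Agent.X212.Dns43
open An Sob92 Sw Pb50 Sw21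
open Wz78 (SA)
open M (Mf)

variable {κ lam ν : Type} [Fintype κ] [Fintype lam] [Fintype ν] [DecidableEq ν]
  {X : Mf 4} {nc nr : ℕ}

theorem sm_toLp {f : Option κ → X.M → ℝ} (h : ∀ a, Sm X.I (f a)) :
    Sm X.I fun x => (WithLp.toLp 2 fun a => f a x : Fm (Option κ) ℝ) :=
  (PiLp.continuousLinearEquiv 2 ℝ fun _ : Option κ => ℝ).symm.contDiff.contMDiff.comp
    (contMDiff_pi_space.2 h)

/-- the cut functions of the test spinors take all values -/
theorem exists_lη {b : Bg X.I X.M κ lam ν nc} (hb : b.OK) {c : Sw.Cfg X.M κ ν} (hc : b.Adm c)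
    (hd : Dense {x | c.Φ x ≠ 0}) (j : Fin nc) (z : ℂ) :
    ∃ η, b.Tst (b.ct j).Ξ η ∧ b.lη j η c = z := by
  have C := hb.ct j
  obtain ⟨R, hR⟩ := Kop92.exists_sp C.cρ
  obtain ⟨_, ⟨y₀, -, rfl⟩, h0⟩ := hd.inter_open_nonempty _ (b.ct j).Ξ.open_target
    ⟨_, (b.ct j).Ξ.map_source (x := 0) (C.src ▸ trivial)⟩ |>.imp fun x hx =>
      And.intro ((b.ct j).Ξ.image_source_eq_target.symm.subset hx.1) hx.2
  let χ : ContDiffBump y₀ := default
  have sΦ : ContDiff ℝ ∞ fun y => c.Φ ((b.ct j).Ξ y) := (hc.sΦ.comp C.sm).contDiff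
  have sK := Kop92.contDiff_K (μ := leb R4) (β := b.ta j c) C.sρ hR (((innerSL ℝ).contDiff.comp
    ((sm_toLp hc.sa).comp C.sm).contDiff).clm_comp C.sθ)
  have p : 0 < ∫ y, χ y * ‖c.Φ ((b.ct j).Ξ y)‖ ^ 2 ∂leb R4 :=
    (χ.continuous.mul (sΦ.continuous.norm.pow 2)).integral_pos_of_hasCompactSupport_nonneg_nonzero
      χ.hasCompactSupport.mul_right (fun y => mul_nonneg χ.nonneg (sq_nonneg _)) (x := y₀)
      (mul_ne_zero (χ.pos_of_mem_ball (Metric.mem_ball_self χ.rOut_pos)).ne'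
        (pow_ne_zero 2 (norm_ne_zero_iff.2 h0)))
  set m := ∫ y, χ y * ‖c.Φ ((b.ct j).Ξ y)‖ ^ 2 ∂leb R4 with hm'
  refine ⟨fun y => χ y • cB b.m.J (star (z / m) * Complex.exp (Kop92.K (leb R4) (b.ct j).ρ
    (b.ta j c) y * Complex.I)) (c.Φ ((b.ct j).Ξ y)), ⟨χ.contDiff.smul ((((cB b.m.J).contDiff.comp
      (contDiff_const.mul ((Complex.ofRealCLM.contDiff.comp sK).mul contDiff_const).cexp))).clm_apply
      sΦ), χ.hasCompactSupport.smul_right, fun y => by
        rw [map_smul, cB_apply, cs_comm (Jpp hb _), hc.pΦ]⟩, ?_⟩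
  have k : ∀ (r : ℝ) (u : ℂ) (v : Eu ν), hm b.m.J (r • cB b.m.J u v) v = star u * (r * ‖v‖ ^ 2 : ℝ) :=
    fun r u v => by
      have e1 : ⟪b.m.J v, v⟫_ℝ = 0 := (Sw88.p8 hb ((b.ct j).Ξ 0)).inner_J v
      have e2 : ⟪b.m.J v, b.m.J v⟫_ℝ = ‖v‖ ^ 2 := by
        rw [hb.m.Jsk, show b.m.J (b.m.J v) = -v from congrArg (fun T : En ν => T v) hb.m.Jsq,
          inner_neg_right, neg_neg, real_inner_self_eq_norm_sq]
      refine Complex.ext ?_ ?_ <;> simp [hm, cB_apply, cs, inner_add_left, real_inner_smul_left, e1,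
        e2, real_inner_comm (b.m.J v) v, -Complex.ofReal_pow, -inner_self_eq_norm_sq_to_K,
        real_inner_self_eq_norm_sq v] <;> ring
  have k' : ∀ u v w : ℂ, ‖u‖ = 1 → u * (star (star v * u) * w) = v * w := fun u v w e => by
    rw [star_mul', star_star]
    linear_combination v * w * star_mul_one e
  simp only [Bg.lη, k, k' _ _ _ (Complex.norm_exp_ofReal_mul_I _)]
  rw [integral_const_mul, integral_complex_ofReal, ← hm', div_mul_cancel₀ _ (mod_cast p.ne')]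

variable {N : Type} [Fintype N] {d : Dt κ lam ν} {ty : N → d.𝓔}
  {T : Type} [NormedAddCommGroup T] [NormedSpace ℝ T] [FiniteDimensional ℝ T]
  {s : Pz X 0 fun i => d.e (ty i)} {σ : Cel s nc nr T} (hR : RepStmt d ty X nc nr T) (h : σ.OK)
  {k : ℕ} (hk : 7 ≤ k)
include hR h hk

/-- the linearised Dirac row -/
theorem lin (q : d.W →₀ ℝ) (y : σ.Pnt) (α : Sec X.I s.bg.p1) (φ : Sec X.I s.bg.pp) (x : X.M) :
    s.bg.F.val k _ (fderiv ℝ (σ.F k q) (σ.pt k y) (s.bg.F.toH _ _ α, s.bg.F.toH _ _ φ, 0)).1 x =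
      AA (σ.P y.1.1).toPz y.1.2 (fun i x => ∑ b, σ.S y.1.1 x i b * α.1 x b) x +
        LL (σ.P y.1.1).toPz y.1.2 φ.1 x - KK (σ.P y.1.1).toPz y.1.2 φ.1 x := by
  have hβ := cr_of_gd h.gd
  have hS := Sup.of_tame h.site.bg.tame.choose_spec
  have k3 : 3 ≤ k := by omega
  refine HasDerivAt.unique ((s.bg.F.ev k _ x ∘L .fst ℝ _ _).hasFDerivAt.comp_hasDerivAt_of_eq 0
    ((F_diff hR h hk q y).hasFDerivAt.hasLineDerivAt _) rfl) ((der_D (h.ok _ y.2.1).toOK y.2.2.1
      φ.2.1 _ x).congr_of_eventuallyEq (.of_forall fun r => ?_))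
  obtain ⟨⟨⟨t, c⟩, ht, hc⟩, e⟩ := exists_pt h.toOK hβ y.2.1
    (add_mem (hs_a h.toOK hβ y) (Submodule.smul_mem _ r (Mod61.Hs_sec hS α)))
    (add_mem (hs_Φ h.toOK hβ y) (Submodule.smul_mem _ r (Mod61.Hs_sec hS φ)))
  have e' : σ.pt k y + r • (s.bg.F.toH _ _ α, s.bg.F.toH _ _ φ, 0) = σ.pt k ⟨_, ht, hc⟩ :=
    ((e k).trans (Prod.ext (Mod61.ofV_eq hS (by omega) (by
      rw [← val_a h.toOK hβ k3, ← val_toH hS (show 4 ≤ k + 1 by omega) α, ← val_smul, ← val_add]; rfl))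
      (Prod.ext (Mod61.ofV_eq hS (by omega) (by
        rw [← val_Φ h.toOK hβ k3, ← val_toH hS (show 4 ≤ k + 1 by omega) φ, ← val_smul, ← val_add]; rfl))
        (by simp [Cel.pt])))).symm
  obtain rfl : t = y.1.1 := congrArg (·.2.2) (e k)
  have e1 := val_a h.toOK hβ k3 ⟨_, ht, hc⟩
  have e2 := val_Φ h.toOK hβ k3 ⟨_, ht, hc⟩
  simp only [← e', Prod.fst_add, Prod.snd_add, Prod.smul_mk, val_add, val_smul, val_a h.toOK hβ k3,
    val_Φ h.toOK hβ k3, val_toH hS (show 4 ≤ k + 1 by omega)] at e1 e2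
  obtain rfl : ⟨y.1.2.a + r • fun i x => ∑ b, σ.S y.1.1 x i b * α.1 x b, y.1.2.Φ + r • φ.1⟩ = c := by
    refine Cfg.ext (funext fun i => funext fun x => ?_)
      (sub_left_injective ((add_sub_right_comm _ _ _).trans e2))
    rw [← S_al h.toOK ht ((as_fam h.toOK ht _ _).1 hc).2, ← sub_left_injective
      ((add_sub_right_comm _ _ _).trans (congrFun e1 x))]
    simp only [Pi.add_apply, Pi.smul_apply, PiLp.add_apply, PiLp.smul_apply, smul_eq_mul, mul_add,
      Finset.sum_add_distrib, S_al h.toOK ht ((as_fam h.toOK ht _ _).1 y.2.2).2, Finset.mul_sum,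
      mul_left_comm r]
  obtain ⟨r0, r1, -⟩ := hR s σ h k hk
  simp only [comp, e', Cel.F, map_add, map_finsuppSum, map_smul]
  exact (congrArg₂ (· + ·) (congrArg (·.1 x) (r0.2 _)) (Finset.sum_eq_zero fun w _ =>
    smul_eq_zero_of_right (q w) (congrArg (·.1 x) ((r1 w).2 _)))).trans (add_zero _)

omit hR h hk in
variable (d ty X nc T) in
/-- **SW-DENS-P** -/
theorem densStmt (hR : RepStmt d ty X nc 0 T) : DensStmt d ty X nc T := by
  intro s σ h n hI k hk q y hr hs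
  have hS := Sup.of_tame h.site.bg.tame.choose_spec
  have k4 : 4 ≤ k := by omega
  have ht := y.2.1
  have hP := (h.ok _ ht).toOK
  have hc := y.2.2.1
  have hD := fun x => (hs.1.2.eq x trivial).1
  have r1 := fun w => ((hR s σ h k hk).2.1 w).2 y
  refine Wrd81.exists_onto (hI k hk q y).choose_spec.2.1 (fun w => σ.rp k (σ.eτ w) (σ.pt k y))
    fun N hN hA hv => ?_
  have m : ∀ w (r : ℝ) a z, s.bg.F.val k _ a = r • (σ.eτ w y.1.1 y.1.2).2.1 →
      z = r • (σ.eτ w y.1.1 y.1.2).2.2.1 → (0, a, z, 0) ∈ N := fun w r a z e1 e2 => by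
    rw [← r1 w] at e1 e2
    convert N.smul_mem r (hv w) using 1
    exact Prod.ext (val_injective hS k4 (val_zero.trans (((val_smul _ _).trans (congrArg _
      (congrArg (·.1) (r1 w)))).trans (smul_zero _)).symm)) (Prod.ext (val_injective hS k4
        (e1.trans (val_smul _ _).symm)) (Prod.ext e2 (Subsingleton.elim _ _)))
  have h2 : ∀ a, (0, a, 0, 0) ∈ N := fun a => by
    induction a using H_ind with
    | hP => exact hN.preimage (by fun_prop)
    | h f =>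
      obtain ⟨w, r, r0, e1, e2, e3⟩ := hr.fo f.1 (by
        simpa only [funext fun x => show (σ.P y.1.1).bg.p2 x = s.bg.p2 x by
          simp only [Bg.p2, h.B _ ht]] using f.2)
      exact m w (-r⁻¹) _ _ ((val_toH hS k4 f).trans (funext fun x => by
        simp [Cel.eτ, Pc.tm, e1, e2, elim_zero, r0]))
        (funext fun j => by simp [Cel.eτ, e3, Bg.lη, ← Kop92.hmL_apply])
  have h3 : ∀ z, (0, 0, z, 0) ∈ N := fun z => by
    rw [← Finset.univ_sum_single z]
    refine Finset.sum_induction _ (fun z => (0, 0, z, 0) ∈ N) (fun a b ha hb => by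
      simpa using N.add_mem ha hb) N.zero_mem fun j _ => ?_
    obtain ⟨η, t1, t2⟩ := exists_lη hP.bg hc (dense_ne hP hc hD hs.1.1.2) j (z j)
    obtain ⟨w, r, r0, e1, e2, e3⟩ := hr.η j η t1
    refine m w (-r⁻¹) _ _ (val_zero.trans (funext fun x => by
      simp [Cel.eτ, Pc.tm, e1, e2, elim_zero])) (funext fun i => ?_)
    obtain rfl | n := eq_or_ne i j
    · simp [Cel.eτ, e3, ← t2, Bg.lη, ← Kop92.hmL_apply, integral_const_mul, r0, mul_left_comm _ (r : ℂ)]
    · simp [Cel.eτ, e3, n, Bg.lη, ← Kop92.hmL_apply]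
  have h4 : ∀ v ∈ N, (v.1, 0) ∈ N := fun v hv => by
    convert N.sub_mem (N.sub_mem hv (h2 v.2.1)) (h3 v.2.2.1) using 1
    exact Prod.ext (by simp) (Prod.ext (by simp) (Prod.ext (by simp) (Subsingleton.elim _ _)))
  let N₁ := N.comap (LinearMap.inl ℝ _ _)
  have : CompleteSpace N₁ := (hN.preimage (Continuous.prodMk_left 0)).completeSpace_coe
  have h1 : N₁ = ⊤ := N₁.orthogonal_eq_bot_iff.1 ((Submodule.eq_bot_iff _).2 fun z hz => ?_)
  · intro v
    convert N.add_mem (N.add_mem (show (v.1, 0) ∈ N from (h1 ▸ Submodule.mem_top : v.1 ∈ N₁))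
      (h2 v.2.1)) (h3 v.2.2.1) using 1
    exact Prod.ext (by simp) (Prod.ext (by simp) (Prod.ext (by simp) (Subsingleton.elim _ _)))
  obtain ⟨g, hg⟩ := (LinearMap.pi fun x => (s.bg.F.ev k s.bg.pm x).toLinearMap
    ).exists_leftInverse_of_injective (LinearMap.ker_eq_bot.2 (val_injective hS k4))
  have g1 : ∀ a, g (s.bg.F.val k _ a) = a := LinearMap.congr_fun hg
  have g2 : ∀ u, ⟪z, g (s.bg.F.val k _ (fderiv ℝ (σ.F k q) (σ.pt k y) u).1)⟫_ℝ = 0 := fun u => by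
    rw [g1, real_inner_comm]; exact hz _ (h4 _ (hA u))
  refine inner_self_eq_zero.1 (DFunLike.congr_fun (row_zero hP hc hD hs.1.1.2 ((innerSL ℝ z).toLinearMap ∘ₗ g)
    (funext fun x => by simp only [Bg.pm, Bg.vol, h.B _ ht, h.m _ ht]) (innerSL ℝ z)
    (fun u => congrArg (⟪z, ·⟫_ℝ) ((congrArg g (val_toH hS k4 u).symm).trans (g1 _)))
    (fun α a1 a2 => ?_) fun φ => ?_) z)
  · rw [h.B _ ht] at a2
    have := g2 (s.bg.F.toH _ _ ⟨σ.al y.1.1 ⟨α, 0⟩, sm_toLp fun a x => SA.sum _ fun j _ => SA.mul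
      (((h.sSi a j).cb _ ht).choose_spec.1 x) ((a1 j).1 x), ?_, fun x => ?_⟩, s.bg.F.toH _ _ 0, 0)
    · rw [funext (lin hR h hk q y _ 0)] at this
      simp only [S_al h.toOK ht (c := ⟨α, 0⟩) a2, KK, Submodule.coe_zero, Finset.sum_eq_zero fun i _ =>
        elim_zero fun K _ => kk_zero (c := y.1.2) (φ := 0) K fun _ _ => rfl] at this
      simpa [LL, Pre.op, Pre.D_def, Pi.zero_def] using this
    · refine .intro (isCompact_iUnion fun j => (a1 j).2.isCompact) fun x hx => ?_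
      ext a
      simp [Fam.al, fun j => image_eq_zero_of_notMem_tsupport fun m => hx (mem_iUnion.2 ⟨j, m⟩)]
    · ext a
      rw [p1_apply, P_al h.toOK ht]
  · have := funext (lin hR h hk q y 0 ⟨φ.1, pp_fam h.toOK ht ▸ φ.2⟩)
    simp only [AA, Submodule.coe_zero, Pi.zero_apply, PiLp.zero_apply, mul_zero,
      Finset.sum_const_zero, zero_smul, zero_add] at this
    exact ⟨(congrArg (fun f => ⟪z, g f⟫_ℝ) this).symm.trans (g2 _), fun x =>
      (congrFun this x ▸ val_proj hS k4 _ x :)⟩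

end Crest.Agent.X212.Dns43
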