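import Crest.Agent.X212.Sw88.Cut
import Crest.Agent.X212.Met55.Mix

/-!
# Row 212, SW-DENS-P (helper43): the non-local part of the linearised radial mass
-/

set_option autoImplicit false
set_option linter.unusedSectionVars false
noncomputable section
open scoped Manifold ContDiff Topology InnerProductSpace
open MeasureTheory Set Function Filter

namespace Crest.Agent.X212.Dns43
open An Sob92 Cyf70 Sw88
open Sw (Bg En3 Nk Cfg)
open M (Mf)
open Nd18 (Dp)

/-- test functions -/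
structure Tf (O : Set ℝ) (f : ℝ → ℝ) : Prop where
  sm : ContDiff ℝ ∞ f
  cs : HasCompactSupport f
  z : ∀ t ∉ O, f t = 0

theorem ode {ν : (ℝ → ℝ) →ₗ[ℝ] ℝ} {O : Set ℝ} (hO : O.OrdConnected) (hc : IsClosed O) {h : ℝ → ℝ}
    (hh : ContDiff ℝ ∞ h) (H : ∀ f, Tf O f → ν (deriv f) = ν (h * f)) {g' : ℝ → ℝ} (h' : Tf O g')
    (h0 : 0 ≤ g') {s : ℝ} (hs : g' s ≠ 0) (h1 : ν g' = 0) {g : ℝ → ℝ} (hg : Tf O g) : ν g = 0 := by
  have pr : ∀ {u : ℝ → ℝ} (a : ℝ), ContDiff ℝ ∞ u → ContDiff ℝ ∞ (fun t => ∫ s in a..t, u s) ∧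
      ∀ t, HasDerivAt (fun t => ∫ s in a..t, u s) (u t) t := fun a hu =>
    have d := fun t => (hu.continuous.integral_hasStrictDerivAt a t).hasDerivAt
    ⟨contDiff_infty_iff_deriv.2 ⟨fun t => (d t).differentiableAt,
      (funext fun t => (d t).deriv).symm ▸ hu⟩, d⟩
  obtain ⟨c1, d1⟩ := pr 0 hh
  set A := fun t => ∫ s in (0 : ℝ)..t, h s
  have cE : ContDiff ℝ ∞ fun t => Real.exp (-A t) := c1.neg.exp
  have i : ∀ {u}, Tf O u → Integrable fun t => u t * Real.exp (-A t) := fun k =>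
    (k.sm.mul cE).continuous.integrable_of_hasCompactSupport k.cs.mul_right
  have key : ∀ {u}, Tf O u → ∫ t, u t * Real.exp (-A t) = 0 → ν u = 0 := fun {u} k e => by
    rcases (tsupport u).eq_empty_or_nonempty with n | n
    · rw [tsupport_eq_empty_iff.1 n, map_zero]
    have hK : tsupport u ⊆ O := closure_minimal (fun t ht => by_contra fun e => ht (k.z t e)) hc
    obtain ⟨a, ha⟩ := k.cs.isCompact.exists_isLeast n
    obtain ⟨b, hb⟩ := k.cs.isCompact.exists_isGreatest n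
    obtain ⟨c2, d2⟩ := pr (a - 1) (k.sm.mul cE)
    have z : ∀ t ∉ Icc a b, Real.exp (A t) * ∫ s in (a - 1)..t, u s * Real.exp (-A s) = 0 :=
      fun t ht => mul_eq_zero_of_right _ (by
        rcases not_and_or.1 ht with l | l
        · refine intervalIntegral.integral_zero_ae (.of_forall fun r hr =>
            mul_eq_zero_of_left (by_contra fun n => ?_) _)
          exact (ha.2 (subset_tsupport _ n)).not_gt (hr.2.trans_lt (max_lt (by linarith) (not_le.1 l)))
        · rw [intervalIntegral.integral_eq_integral_of_support_subset fun r hr => ?_, e]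
          have := subset_tsupport _ (left_ne_zero_of_mul hr)
          exact ⟨by linarith [ha.2 this], (hb.2 this).trans (not_le.1 l).le⟩)
    have := H _ ⟨c1.exp.mul c2, .intro isCompact_Icc z, fun t ht =>
      z t fun m => ht (hO.out (hK ha.1) (hK hb.1) m)⟩
    rw [← sub_eq_zero, ← map_sub] at this
    convert this using 2
    funext t
    rw [Pi.sub_apply, ((d1 t).exp.fun_mul (d2 t)).deriv, Pi.mul_apply, Real.exp_neg]
    field_simp
    ring
  have p : 0 < ∫ t, g' t * Real.exp (-A t) :=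
    (h'.sm.mul cE).continuous.integral_pos_of_hasCompactSupport_nonneg_nonzero h'.cs.mul_right
      (fun t => mul_nonneg (h0 t) (Real.exp_pos _).le) (mul_ne_zero hs (Real.exp_pos _).ne')
  have := key (u := g - ((∫ t, g t * Real.exp (-A t)) / ∫ t, g' t * Real.exp (-A t)) • g')
    ⟨hg.sm.sub (contDiff_const.mul h'.sm), hg.cs.sub h'.cs.smul_left, fun t ht => by
      simp [hg.z t ht, h'.z t ht]⟩ (by
      simp only [Pi.sub_apply, Pi.smul_apply, smul_eq_mul, sub_mul, mul_assoc]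
      rw [integral_sub (i hg) ((i h').const_mul _), integral_const_mul, div_mul_cancel₀ _ p.ne',
        sub_self])
  rwa [map_sub, map_smul, h1, smul_zero, sub_zero] at this

variable {κ lam ν : Type} [Fintype κ] [Fintype lam] [Fintype ν] [DecidableEq ν]
  {e : En3 κ lam ν} {X : Mf 4} {nc : ℕ} {b : Bg X.I X.M κ lam ν nc} (K : Nk e b)
  (c : Cfg X.M κ ν) (φ : X.M → Eu ν)

/-- the slice product with the spinor -/
def ns (t : ℝ) : ℝ := ∫ y, ⟪c.Φ (K.ψ (y, t)), φ (K.ψ (y, t))⟫_ℝ ∂e.D.F.μ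

/-- the derivative of the radial mass -/
def gg (t : ℝ) : ℝ := K.cut 1 t * (2 * deriv e.b (En3.nm (En3.sl (K.pb c) t)))

/-- the non-local term -/
def kk (x : X.M) : Eu ν := (gg K c (K.tm x) * ns K c φ (K.tm x)) • b.m.ρ none x (c.Φ x)

variable {c φ} {f : ℝ → ℝ}

theorem sm_ip {u v : X.M → Eu ν} (hu : Sm X.I u) (hv : Sm X.I v) : Sm X.I fun x => ⟪u x, v x⟫_ℝ :=
  fun x => Wz78.SA.inner (hu x) (hv x)

theorem gg_zero {t : ℝ} (ht : t ∉ Dp K.p K.q 1) : gg K c t = 0 :=
  mul_eq_zero_of_left (Nd18.ct_zero ht) _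

theorem sm_tm (hf : ContDiff ℝ ∞ f) (h0 : ∀ t ∉ Dp K.p K.q 1, f t = 0) :
    Sm X.I fun x => f (K.tm x) := K.push_time one_pos h0 ▸
  sm_pull (iso_symm K.iso) (sm_snd hf) (K.adm one_pos fun z => h0 z.2)

theorem D_tm (hf : ContDiff ℝ ∞ f) (h0 : ∀ t ∉ Dp K.p K.q 1, f t = 0) (x : X.M) (v : Eu ν) :
    ∑ a, b.F.D a (fun x => f (K.tm x)) x • b.m.ρ a x v = deriv f (K.tm x) • b.m.ρ none x v := by
  by_cases hx : x ∈ K.ψ.target
  · have k : ∀ a, b.F.D a (fun x => f (K.tm x)) x = e.D.Z.D a (fun z => f z.2) (K.ψ.symm x) :=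
      fun a => K.rel'.D hx a ((K.ψ.open_target.eventually_mem hx).mono fun y hy => by
        rw [← K.snd_symm hy])
    have k1 : e.D.Z.D none (fun z => f z.2) = _ := D_none_snd e.D.F.toPre hf
    have k2 : ∀ a, e.D.Z.D (some a) (fun z => f z.2) = _ := D_some_snd e.D.F.toPre hf
    simp only [Fintype.sum_option, k, k1, k2, K.snd_symm hx, Pi.zero_apply, zero_smul,
      Finset.sum_const_zero, add_zero]
  · have n : K.tm x ∉ Dp K.p K.q 1 := fun h => hx (K.dp_sub one_pos h)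
    have k : f =ᶠ[𝓝 (K.tm x)] fun _ => 0 :=
      (Nd18.isClosed_Dp.isOpen_compl.eventually_mem n).mono h0
    simp only [Pre.D_def, k.deriv_eq, deriv_const, zero_smul,
      dv_congr (v := fun _ => (0 : ℝ)) (K.cont.continuousAt.eventually k), dv_const,
      Pi.zero_apply, Finset.sum_const_zero]

theorem ns_tm (t : ℝ) : gg K c t * ns K c ((fun x => f (K.tm x)) • φ) t =
    gg K c t * ns K c φ t * f t := by
  by_cases ht : t ∈ Dp K.p K.q 1
  · simp only [ns, Pi.smul_apply', real_inner_smul_right, fun y => K.tm_ψ (y, t) (K.mem_src.2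
      (Nd18.Dp_sub one_pos ht)), integral_const_mul]
    ring
  · simp only [gg_zero K ht, zero_mul]

theorem kk_zero (h : ∀ x ∈ K.ψ.target, φ x = 0) : kk K c φ = 0 := funext fun x => by
  by_cases ht : K.tm x ∈ Dp K.p K.q 1
  · simp [kk, ns, fun y => h _ (K.ψ.map_source (x := (y, K.tm x)) (K.mem_src.2
      (Nd18.Dp_sub one_pos ht)))]
  · simp [kk, gg_zero K ht]

variable (he : e.OK) (h : Sm X.I c.Φ)
include he h

theorem cd_gg {u : ℝ → ℝ} (hu : ContDiffOn ℝ ∞ u K.J) : ContDiff ℝ ∞ fun t => gg K c t * u t := by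
  simp only [gg, mul_assoc]
  exact contMDiff_iff_contDiff.1 (sm_cut Nd18.isOpen_Jv (contMDiff_iff_contDiff.2 Nd18.contDiff_ct)
    (Nd18.tsupport_ct.trans (Nd18.Dp_sub one_pos)) (contMDiffOn_iff_contDiffOn.2
      (contDiffOn_const.mul (((contDiff_infty_iff_deriv.1 he.sb).2.comp_contDiffOn
        (cd_nm (c := K.pb c) Nd18.isOpen_Jv (smOn_pb K h))).mul hu))))

omit he in
theorem cd_ns (hφ : Sm X.I φ) : ContDiffOn ℝ ∞ (ns K c φ) K.J :=
  cd_sl e.D.F.toPre Nd18.isOpen_Jv (smOn_pb K (sm_ip h hφ))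

theorem tf_ns (hφ : Sm X.I φ) (hc : HasCompactSupport φ) :
    Tf (Dp K.p K.q 1) fun t => gg K c t * ns K c φ t :=
  ⟨cd_gg K he h (cd_ns K h hφ), .intro (hc.isCompact.image K.cont) fun t ht => by
    by_cases m : t ∈ Dp K.p K.q 1
    · simp [ns, fun y => image_eq_zero_of_notMem_tsupport (f := φ) (x := K.ψ (y, t)) fun k =>
        ht ⟨_, k, K.tm_ψ (y, t) (K.mem_src.2 (Nd18.Dp_sub one_pos m))⟩]
    · rw [gg_zero K m, zero_mul], fun t ht => by rw [gg_zero K ht, zero_mul]⟩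

/-- the derivative of the radial mass -/
theorem der_rad (hφ : Sm X.I φ) (a : ℝ → Option κ → X.M → ℝ) (x : X.M) :
    HasDerivAt (fun r : ℝ => K.rad ⟨a r, c.Φ + r • φ⟩ x)
      (β K c (K.tm x) • b.m.ρ none x (φ x) + kk K c φ x) 0 := by
  by_cases m : K.tm x ∈ Dp K.p K.q 1
  · have i : ∀ {u v : X.M → Eu ν}, Sm X.I u → Sm X.I v → Integrable (fun y =>
        ⟪u (K.ψ (y, K.tm x)), v (K.ψ (y, K.tm x))⟫_ℝ) e.D.F.μ := fun hu hv =>
      int_sl e.D.F.toPre (smOn_pb K (sm_ip hu hv)).continuousOn (Nd18.Dp_sub one_pos m)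
    have d : HasDerivAt (fun r : ℝ => En3.nm (En3.sl (K.pb ⟨a r, c.Φ + r • φ⟩) (K.tm x)))
        (2 * ns K c φ (K.tm x)) 0 := by
      refine (((((hasDerivAt_id (0 : ℝ)).mul_const (2 * ns K c φ (K.tm x))).add
        ((hasDerivAt_pow 2 (0 : ℝ)).mul_const (ns K ⟨c.a, φ⟩ φ (K.tm x)))).const_add
        (ns K c c.Φ (K.tm x))).congr_deriv (by simp)).congr_of_eventuallyEq (.of_forall fun r => ?_)
      simp only [ns, Pi.add_apply, id, ← integral_const_mul]
      rw [← integral_add (((i h hφ).const_mul _).const_mul _) ((i hφ hφ).const_mul _)]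
      refine (integral_congr_ae (.of_forall fun y => ?_)).trans (integral_add (i h h)
        ((((i h hφ).const_mul _).const_mul _).add ((i hφ hφ).const_mul _)))
      simp only [En3.sl, Cfg.pb, Pi.add_apply, Pi.smul_apply, norm_add_sq_real, norm_smul,
        real_inner_smul_right, real_inner_self_eq_norm_sq, mul_pow, Real.norm_eq_abs, sq_abs]
      ring
    have d2 : HasDerivAt (fun r : ℝ => b.m.ρ none x (c.Φ x + r • φ x)) (b.m.ρ none x (φ x)) 0 :=
      ((b.m.ρ none x).hasFDerivAt.comp_hasDerivAt (0 : ℝ)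
        (((hasDerivAt_id (0 : ℝ)).smul_const (φ x)).const_add (c.Φ x))).congr_deriv (by simp)
    refine ((((he.sb.differentiable (by simp) _).hasDerivAt.comp 0 d).const_mul (K.χ x)).smul
      d2).congr_deriv ?_
    simp only [β, kk, gg, En3.nm, En3.sl, Cfg.pb, Nd18.Nk.χ, comp, zero_smul, add_zero]
    congr 2
    ring
  · simp only [Nk.rad, β, kk, gg_zero K m, K.χ_zero m, show K.cut 1 (K.tm x) = 0 from K.χ_zero m,
      zero_mul, zero_smul, add_zero]
    exact hasDerivAt_const _ _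

/-- a functional that is compatible with the complexified gauge directions kills the term -/
theorem nk_zero (Λ : (X.M → Eu ν) →ₗ[ℝ] ℝ)
    (H1 : ∀ θ : X.M → ℝ, Sm X.I θ → HasCompactSupport θ → (∀ x ∉ K.ψ.target, θ x = 0) →
      Λ (kk K c (θ • c.Φ)) = Λ fun x => ∑ a, b.F.D a θ x • b.m.ρ a x (c.Φ x))
    (H2 : ∀ θ : X.M → ℝ, Sm X.I θ → HasCompactSupport θ → tsupport θ ⊆ {x | c.Φ x ≠ 0} →
      Λ (fun x => ∑ a, b.F.D a θ x • b.m.ρ a x (c.Φ x)) = 0)
    (hφ : Sm X.I φ) (hc : HasCompactSupport φ) : Λ (kk K c φ) = 0 := by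
  let n : (ℝ → ℝ) →ₗ[ℝ] X.M → Eu ν :=
    { toFun := fun u x => u (K.tm x) • b.m.ρ none x (c.Φ x)
      map_add' := fun _ _ => funext fun _ => add_smul _ _ _
      map_smul' := fun _ _ => funext fun _ => mul_smul _ _ _ }
  have hn : ∀ φ, kk K c φ = n fun t => gg K c t * ns K c φ t := fun _ => rfl
  by_cases k : ∀ t, gg K c t * ns K c φ t = 0
  · rw [hn, show (fun t => _) = 0 from funext k, map_zero, map_zero]
  obtain ⟨s, hs⟩ := not_forall.1 k
  have m : s ∈ K.J := Nd18.Dp_sub one_pos (by_contra fun m => left_ne_zero_of_mul hs (gg_zero K m))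
  obtain ⟨y, hy⟩ : ∃ y, c.Φ (K.ψ (y, s)) ≠ 0 := by_contra fun m =>
    right_ne_zero_of_mul hs (by simp [ns, fun y => not_not.1 (not_exists.1 m y)])
  obtain ⟨θ, t1, t2, t3, t4, t5⟩ := Met55.exists_cut (I := X.I) isCompact_singleton
    (isOpen_ne_fun h.continuous continuous_const) (singleton_subset_iff.2 hy)
  have cg : ContDiff ℝ ∞ (gg K c) := by simpa using cd_gg K he h (contDiffOn_const (c := 1))
  have s1 := (sm_tm K cg fun _ => gg_zero K).mul t1
  have e1 : ∀ t, gg K c t * ns K c (((fun x => gg K c (K.tm x)) * θ) • c.Φ) t =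
      gg K c t ^ 2 * ns K c (θ • c.Φ) t := fun t => by
    rw [mul_smul, ns_tm]; ring
  have p : ∀ x, 0 ≤ ⟪c.Φ x, (θ • c.Φ) x⟫_ℝ := fun x => by
    rw [Pi.smul_apply', real_inner_smul_right]; exact mul_nonneg (t4 x).1 real_inner_self_nonneg
  have := openPos e.D.F.toPre
  have := lfm e.D.F.toPre
  refine ode (ν := Λ ∘ₗ n) (O := Dp K.p K.q 1) ⟨fun _ u _ v _ w => ⟨fun a ha => (u.1 a ha).trans w.1,
    fun a ha => w.2.trans (v.2 a ha)⟩⟩ Nd18.isClosed_Dp (cd_gg K he h (cd_ns K h h))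
    (fun f hf => ?_) (tf_ns K he h (s1.smul h) t2.mul_left.smul_right) (fun t => ?_) (s := s) ?_
    ((H1 _ s1 t2.mul_left fun x hx => mul_eq_zero_of_left (gg_zero K fun m =>
      hx (K.dp_sub one_pos m)) _).trans (H2 _ s1 t2.mul_left
        (tsupport_mul_subset_right.trans t3))) (tf_ns K he h hφ hc)
  · have T : tsupport f ⊆ K.J := (closure_minimal (fun t (ht : _ ≠ _) => by_contra fun e => ht (hf.z t e))
      Nd18.isClosed_Dp).trans (Nd18.Dp_sub one_pos)
    have := H1 _ (sm_tm K hf.sm hf.z) (.intro ((isCompact_univ.prod hf.cs.isCompact).image_of_continuousOn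
      (K.ψ.continuousOn.mono fun z hz => K.mem_src.2 (T hz.2))) fun x hx => by_contra fun n => ?_)
      fun x hx => hf.z _ fun m => hx (K.dp_sub one_pos m)
    · simp only [D_tm K hf.sm hf.z, hn, ns_tm] at this
      exact this.symm
    · have m := K.dp_sub one_pos (by_contra fun m => n (hf.z _ m))
      exact hx ⟨K.ψ.symm x, ⟨trivial, K.snd_symm m ▸ subset_tsupport _ n⟩, K.ψ.right_inv m⟩
  · exact (mul_nonneg (sq_nonneg _) (integral_nonneg fun _ => p _)).trans_eq (e1 t).symm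
  · refine (e1 s).symm ▸ mul_ne_zero (pow_ne_zero 2 (left_ne_zero_of_mul hs)) (ne_of_gt ?_)
    refine Continuous.integral_pos_of_hasCompactSupport_nonneg_nonzero (x := y)
      ((smOn_pb K (sm_ip h (t1.smul h))).continuousOn.comp_continuous (.prodMk_left s)
        fun _ => ⟨trivial, m⟩) (.of_compactSpace _) (fun _ => p _) ?_
    simpa [(t5 _ rfl).self_of_nhds] using hy

end Crest.Agent.X212.Dns43
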