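import Crest.Agent.X212.Dns43.Main
import Crest.Agent.X212.Dz34.Defs
import Crest.Agent.X212.Dr9.Hol

/-!
# Row 212, DZ-SLAB (helper43): cokernel elements vanish on slabs of free forms
-/

set_option autoImplicit false
set_option linter.unusedSectionVars false
noncomputable section
open scoped Manifold ContDiff Topology InnerProductSpace
open MeasureTheory Set Function Filter

namespace Crest.Agent.X212.Dns43
open An Sob92 Cyf70 Sw Sw.En3 Sw88 Map77.S Dz34
open Map77 (i1 i2 f2 s2 inner2 ext2)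
open Wz78 (SA)
open M (Mf)

variable {κ lam ν : Type} [Fintype κ] [Fintype lam] [Fintype ν] [DecidableEq ν]

/-- unique continuation for `D Φ = R Φ` -/
theorem dense_bg {X : Mf 4} {nc : ℕ} [ConnectedSpace X.M] {b : Bg X.I X.M κ lam ν nc} (hb : b.OK)
    {c : Sw.Cfg X.M κ ν} (hc : b.Adm c) {R : X.M → En ν} (hR : Continuous R)
    (hD : ∀ x, b.eD c x = R x (c.Φ x)) (h0 : ∃ x, c.Φ x ≠ 0) : Dense {x | c.Φ x ≠ 0} := by
  obtain ⟨C, -, g⟩ := good hb
  obtain ⟨x₀, h0⟩ := h0
  have s : Continuous fun x => b.pm x * (R x - (∑ a, b.m.ρ a x * b.W c a x + b.ms x)) :=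
    (cb_pm hb).choose_spec.1.continuous.mul (hR.sub ((continuous_finsetSum _ fun a _ =>
      (hb.cρ a).choose_spec.1.continuous.mul (ContMDiff.continuous ((cm hb hc).cc.sm a))).add
      hb.cms.choose_spec.1.continuous))
  refine fun y => by_contra fun n => h0 (Ucp64.ucp_op _ _ g (cliff hb).1 isOpen_univ
    isPreconnected_univ hc.sΦ.contMDiffOn (fun x _ => hc.pΦ x) (fun x _ =>
      ⟨‖b.pm x * (R x - (∑ a, b.m.ρ a x * b.W c a x + b.ms x))‖ + 1,
      (s.continuousAt.norm.eventually_lt_const (lt_add_one _)).mono fun z hz => ?_⟩)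
    (mem_univ y) ((isClosed_closure.isOpen_compl.eventually_mem n).mono fun z hz =>
      by_contra fun k => hz (subset_closure k)) x₀ trivial)
  refine le_of_eq_of_le (congrArg _ ?_) (ContinuousLinearMap.le_of_opNorm_le _ hz.le _)
  rw [Op.app, Map77.op_cut _ (cb_pp hb).choose_spec.1 hc.sΦ hc.pΦ, mul_apply_eq_comp, sub_apply,
    ← hD]
  simp [Pre.op, Bg.eD, Wz78.dir, Wz78.nab, Pre.D_def, Finset.sum_add_distrib, add_assoc,
    -Fintype.sum_option]

variable (κ lam ν) in
/-- **DZ-SLAB** -/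
theorem slabStmt : SlabStmt κ lam ν := by
  intro e he c hc ho _ hE hn v hv h2 a b H y t ht
  classical
  have hb := he.cyl
  have p := p8 hb
  have := openPos e.D.F.toPre
  have := lfm e.D.F.toPre
  have := openPos e.D.Z.toPre
  have := lfm e.D.Z.toPre
  have sD : Sm (IC e.Y.I) fun x => f2 _ _ (f2 _ _ (v x)) := (f2 _ _ ∘L f2 _ _).contMDiff.comp hv.sm
  have sC : Sm (IC e.Y.I) fun x => s2 _ _ (f2 _ _ (v x)) := (s2 _ _ ∘L f2 _ _).contMDiff.comp hv.sm
  have qD : ∀ x, e.cyl.pm x (f2 _ _ (f2 _ _ (v x))) = f2 _ _ (f2 _ _ (v x)) := fun x => by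
    simpa [op0, Map77.addB, full, Map77.cut] using congrArg (fun z => f2 _ _ (f2 _ _ z)) (hv.q x)
  have qC : ∀ x, e.cyl.p2 x (s2 _ _ (f2 _ _ (v x))) = s2 _ _ (f2 _ _ (v x)) := fun x => by
    simpa [op0, Map77.addB, full, Map77.cut] using congrArg (fun z => s2 _ _ (f2 _ _ z)) (hv.q x)
  have zC : ∀ x : e.Y.M × ℝ, x.2 ∈ Ioo a b → s2 _ _ (f2 _ _ (v x)) = 0 := fun x hx => by
    have s1 := sm_slice_fst sC x.2
    have s2' := sm_ip (X := e.Z) sC (s1.comp contMDiff_fst)
    have cm := (contDiffOn_univ.1 (cd_sl e.D.F.toPre isOpen_univ s2'.contMDiffOn)).continuous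
    have z := Measure.eqOn_open_of_ae_eq ((ae_restrict_iff' measurableSet_Ioo).2
      (isOpen_Ioo.ae_eq_zero_of_integral_contDiff_smul_eq_zero (μ := volume)
        (cm.locallyIntegrable.locallyIntegrableOn (Ioo a b)) fun χ c1 c2 c3 => ?_)) isOpen_Ioo
      cm.continuousOn continuousOn_const hx
    · exact inner_self_eq_zero.1 (by_contra fun n => ne_of_gt
        ((s1.continuous.inner s1.continuous).integral_pos_of_hasCompactSupport_nonneg_nonzero
        (.of_compactSpace _) (fun _ => real_inner_self_nonneg) (x := x.1) n) z)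
    · rw [← H χ _ c1 c3 s1 fun y => Dr9.p2_inv y x.2 ▸ qC (y, x.2)]
      simp only [inner2, ← integral_smul]
      refine (integral_cyl e.D.F.toPre (u := fun z => χ z.2 • ⟪s2 _ _ (f2 _ _ (v z)),
        s2 _ _ (f2 _ _ (v (z.1, x.2)))⟫_ℝ) ((c1.continuous.comp continuous_snd).smul s2'.continuous)
        (.intro (isCompact_univ.prod c2.isCompact) fun z hz => by
          rw [image_eq_zero_of_notMem_tsupport fun m => hz ⟨trivial, m⟩, zero_smul])).symm.trans ?_
      simp [real_inner_smul_right]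
      rfl
  have sρ := fun a => (hb.cρ a).choose_spec.1
  have hO : IsOpen {x : e.Y.M × ℝ | x.2 ∈ Ioo a b} := isOpen_Ioo.preimage continuous_snd
  have zD : EqOn (fun x => f2 _ _ (f2 _ _ (v x))) (fun _ => 0)
      ({x : e.Y.M × ℝ | x.2 ∈ Ioo a b} ∩ {x | c.Φ x ≠ 0}) := fun x hx => by
    obtain ⟨θ, t1, t2, t3, t4, t5⟩ := Met55.exists_cut (I := IC e.Y.I) isCompact_singleton hO
      (singleton_subset_iff.2 hx.1)
    let α : Option κ → e.Y.M × ℝ → ℝ := fun i x =>
      θ x * ⟪e.cyl.m.ρ i x (e.cyl.m.J (c.Φ x)), f2 _ _ (f2 _ _ (v x))⟫_ℝ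
    let u : e.Y.M × ℝ → Cf κ ν := fun x => i1 _ _ (WithLp.toLp 2 fun i => α i x)
    have su : Sm (IC e.Y.I) u := (i1 _ (Eu ν)).contMDiff.comp (sm_toLp (X := e.Z) (f := α) fun i x =>
      SA.mul (t1 x) (SA.inner (SA.app (sρ i x) (SA.app contMDiffAt_const (hc.sΦ x))) (sD x)))
    have tu : support u ⊆ support θ := fun x hx (n : θ x = 0) => hx (by simp [u, α, n, ← Pi.zero_def])
    have pu : ∀ x, pC e.cyl x (u x) = u x := fun x => ext2 (by
      ext i
      simp only [u, α, Map77.f2_ps, Map77.f2_i1, Pb50.p1_apply (X := e.Z), ← real_inner_smul_left,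
        ← sum_inner, smul_comm _ (θ x), ← Finset.smul_sum, (p x).sum_ρ]) (by simp [u])
    have k : ∀ x, ⟪v x, sT e.D.F (op0 c) (g0 c) (h0 c) u x⟫_ℝ =
        θ x * (‖c.Φ x‖ ^ 2 * ‖f2 _ _ (f2 _ _ (v x))‖ ^ 2) := fun x => by
      by_cases hx : x.2 ∈ Ioo a b
      · have j : e.cyl.jp x (c.Φ x) = e.cyl.m.J (c.Φ x) := congrArg _ (p_of hb (hc.pΦ x))
        have k1 := (p x).par1 ((p x).pp_J (hc.pΦ x)) (f2 _ _ (f2 _ _ (v x)))
        rw [real_inner_self_eq_norm_sq, (p x).norm_J (p_of hb (hc.pΦ x)), show Taub88.pm _ _ _ _ = _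
          from qD x] at k1
        have k2 : e.cyl.eD (vr c u 1) x - e.cyl.eD c x = θ x • ‖c.Φ x‖ ^ 2 • f2 _ _ (f2 _ _ (v x)) := by
          simp [← k1, Bg.eD, Wz78.dir, Wz78.nab, Bg.W, vr, u, α, co_apply, add_smul, j, mul_smul,
            Finset.sum_add_distrib, Finset.smul_sum, -Fintype.sum_option]
        rw [sT, Op.app, op0, Map77.op_addB, show (cyl e.D.F).op _ _ u x = _ from ho.app u su pu x, k2]
        simp [real_inner_smul_right, inner2, u, h2, zC x hx, g0, Dz34.h0, -WithLp.prod_inner_apply]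
      · have z : ∀ y, (y, x.2) ∉ tsupport u := fun y m => hx (t3 (closure_mono tu m) :)
        simp [sT, fun y => image_eq_zero_of_notMem_tsupport (z y), Op.app,
          image_eq_zero_of_notMem_tsupport fun m => z x.1 (tsupport_op _ _ _ m),
          image_eq_zero_of_notMem_tsupport fun m => hx (t3 m)]
    have cg := t1.continuous.mul ((hc.sΦ.continuous.norm.pow 2).mul (sD.continuous.norm.pow 2))
    refine by_contra fun n => ne_of_gt (cg.integral_pos_of_hasCompactSupport_nonneg_nonzero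
      t2.mul_right (fun x => mul_nonneg (t4 x).1 (mul_nonneg (sq_nonneg _) (sq_nonneg _))) (x := x) ?_)
      ((integral_congr_ae (.of_forall fun x => (k x).symm)).trans (hv.eq u ⟨su, t2.mono tu, pu⟩))
    simpa [(t5 _ rfl).self_of_nhds, show c.Φ x ≠ 0 from hx.2] using n
  have hd := dense_bg (X := e.Z) hb hc (R := fun x => e.b (nm (sl c x.2)) • e.m.ρ none x.1)
    (((he.sb.continuous.comp (contDiffOn_univ.1 (cd_nm isOpen_univ hc.sΦ.contMDiffOn)).continuous).comp
      continuous_snd).smul (sρ none).continuous) (fun x => sub_eq_zero.1 (congrFun hE x)) hn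
  exact ext2 (ext2 (zD.closure sD.continuous continuous_const (hd.open_subset_closure_inter hO ht))
    (zC _ ht)) (h2 _)

end Crest.Agent.X212.Dns43
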